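import Vale.Agent.P050M.Defs

/-! COUNT: few maps are not injective. -/

namespace Vale.Agent.P050M

open Finset MeasureTheory

namespace CountX

theorem pair_bound {U : Type} [Fintype U] [DecidableEq U] (n : ℕ) (u v : U) (huv : u ≠ v) :
    n * (univ.filter (fun i : U → Fin n => i u = i v)).card ≤ n ^ Fintype.card U := by
  have h := Finset.card_le_card_of_injOn
    (s := (univ : Finset (Fin n)) ×ˢ (univ.filter (fun i : U → Fin n => i u = i v)))
    (t := (univ : Finset (U → Fin n))) (fun p => Function.update p.2 u p.1)
    (fun _ _ => Finset.mem_coe.mpr (mem_univ _)) (by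
      rintro ⟨a, i⟩ hi ⟨b, j⟩ hj h
      rw [Finset.mem_coe, Finset.mem_product] at hi hj
      have hi' : i u = i v := (Finset.mem_filter.mp hi.2).2
      have hj' : j u = j v := (Finset.mem_filter.mp hj.2).2
      simp only at h
      have ha : a = b := by
        have := congrFun h u
        simpa using this
      have hij : i = j := by
        funext w
        by_cases hw : w = u
        · rw [hw, hi', hj']
          have := congrFun h v
          rwa [Function.update_of_ne huv.symm, Function.update_of_ne huv.symm] at this
        · have := congrFun h w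
          rwa [Function.update_of_ne hw, Function.update_of_ne hw] at this
      rw [ha, hij])
  rw [Finset.card_product] at h
  simpa using h

end CountX

open CountX

theorem count : S_COUNT := by
  classical
  intro U _ n hn
  have hcard : Nat.card {i : U → Fin n // ¬ Function.Injective i} =
      (univ.filter (fun i : U → Fin n => ¬ Function.Injective i)).card := by
    rw [Nat.card_eq_fintype_card, Fintype.card_subtype]
  have hsub : (univ.filter (fun i : U → Fin n => ¬ Function.Injective i)) ⊆
      (univ : Finset U).offDiag.biUnion
        (fun p => univ.filter (fun i : U → Fin n => i p.1 = i p.2)) := by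
    intro i hi
    have h1 := (Finset.mem_filter.mp hi).2
    rw [Function.Injective] at h1
    push Not at h1
    obtain ⟨u, v, h2, h3⟩ := h1
    rw [Finset.mem_biUnion]
    exact ⟨(u, v), Finset.mem_offDiag.mpr ⟨mem_univ _, mem_univ _, h3⟩,
      Finset.mem_filter.mpr ⟨mem_univ _, h2⟩⟩
  have h4 : n * (univ.filter (fun i : U → Fin n => ¬ Function.Injective i)).card ≤
      Fintype.card U ^ 2 * n ^ Fintype.card U := by
    calc n * (univ.filter (fun i : U → Fin n => ¬ Function.Injective i)).card
        ≤ n * ∑ p ∈ (univ : Finset U).offDiag,
            (univ.filter (fun i : U → Fin n => i p.1 = i p.2)).card :=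
          Nat.mul_le_mul_left _ ((Finset.card_le_card hsub).trans Finset.card_biUnion_le)
      _ = ∑ p ∈ (univ : Finset U).offDiag,
            n * (univ.filter (fun i : U → Fin n => i p.1 = i p.2)).card := by
          rw [Finset.mul_sum]
      _ ≤ ∑ _p ∈ (univ : Finset U).offDiag, n ^ Fintype.card U :=
          Finset.sum_le_sum fun p hp => pair_bound n p.1 p.2 (Finset.mem_offDiag.mp hp).2.2
      _ = (univ : Finset U).offDiag.card * n ^ Fintype.card U := by
          rw [Finset.sum_const, smul_eq_mul]
      _ ≤ Fintype.card U ^ 2 * n ^ Fintype.card U := by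
          refine Nat.mul_le_mul_right _ ?_
          rw [Finset.offDiag_card, Finset.card_univ, pow_two]
          exact Nat.sub_le _ _
  have hn0 : (0 : ℝ) < n := by exact_mod_cast hn
  rw [hcard, div_mul_eq_mul_div, le_div_iff₀ hn0]
  have h5 : ((n * (univ.filter (fun i : U → Fin n => ¬ Function.Injective i)).card : ℕ) : ℝ) ≤
      ((Fintype.card U ^ 2 * n ^ Fintype.card U : ℕ) : ℝ) := by exact_mod_cast h4
  push_cast at h5
  linarith

end Vale.Agent.P050M
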