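import Vale.Agent.P050M.Kernel

/-!
# P050M: transfer from finite samples to measurable kernels, module statements
-/

namespace Vale.Agent.P050M

open Finset MeasureTheory

/-- law of `n + n` independent samples -/
noncomputable def samp {Ω Ω' : Type} [MeasurableSpace Ω] [MeasurableSpace Ω']
    (m : Measure Ω) (m' : Measure Ω') (n : ℕ) : Measure ((Fin n → Ω) × (Fin n → Ω')) :=
  (Measure.pi fun _ : Fin n => m).prod (Measure.pi fun _ : Fin n => m')

/-- COUNT: few maps are not injective -/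
def S_COUNT : Prop := ∀ (U : Type) [Fintype U] (n : ℕ), 0 < n →
  (Nat.card {i : U → Fin n // ¬ Function.Injective i} : ℝ) ≤
    (Fintype.card U : ℝ) ^ 2 / n * (n : ℝ) ^ Fintype.card U

/-- INJ: an injective choice of coordinates preserves the product measure -/
def S_INJ : Prop := ∀ (Ω U : Type) [MeasurableSpace Ω] [Fintype U] (m : Measure Ω)
  [IsProbabilityMeasure m] (n : ℕ) (i : U → Fin n), Function.Injective i →
  MeasurePreserving (fun (x : Fin n → Ω) (u : U) => x (i u)) (Measure.pi fun _ : Fin n => m)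
    (Measure.pi fun _ : U => m)

/-- UP: the expected density of the sample is at most the density of the kernel plus `O(1/n)` -/
def S_UP : Prop := ∀ (Ω Ω' U V : Type) [MeasurableSpace Ω] [MeasurableSpace Ω'] [Fintype U]
  [Fintype V] [DecidableEq U] [DecidableEq V] (E : Finset (U × V)) (m : Measure Ω)
  (m' : Measure Ω')
  [IsProbabilityMeasure m] [IsProbabilityMeasure m'] (W : Ω → Ω' → ℝ) (C : ℝ),
  Measurable (Function.uncurry W) → (∀ x y, 0 ≤ W x y) → (∀ x y, W x y ≤ C) →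
  ∀ n : ℕ, 0 < n →
    ∫ p, (∑ i : U → Fin n, ∑ j : V → Fin n, ∏ e ∈ E, W (p.1 (i e.1)) (p.2 (j e.2)))
      ∂(samp m m' n) ≤
    (n : ℝ) ^ (Fintype.card U + Fintype.card V) * (homInt E m m' W +
      ((Fintype.card U : ℝ) ^ 2 + (Fintype.card V : ℝ) ^ 2) / n * C ^ E.card)

/-- LOW: Jensen -/
def S_LOW : Prop := ∀ (Ω Ω' : Type) [MeasurableSpace Ω] [MeasurableSpace Ω'] (m : Measure Ω)
  (m' : Measure Ω') [IsProbabilityMeasure m] [IsProbabilityMeasure m'] (W : Ω → Ω' → ℝ) (C : ℝ),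
  Measurable (Function.uncurry W) → (∀ x y, 0 ≤ W x y) → (∀ x y, W x y ≤ C) →
  ∀ n e : ℕ, 0 < n →
    (∫ q : Ω × Ω', W q.1 q.2 ∂(m.prod m')) ^ e ≤
      ∫ p, ((∑ k : Fin n, ∑ l : Fin n, W (p.1 k) (p.2 l)) / (n : ℝ) ^ 2) ^ e ∂(samp m m' n)

/-- TRANS: from UP, LOW -/
def S_TRANS : Prop := ∀ (Ω Ω' U V : Type) [MeasurableSpace Ω] [MeasurableSpace Ω'] [Fintype U]
  [Fintype V] [DecidableEq U] [DecidableEq V] (E : Finset (U × V)) (m : Measure Ω)
  (m' : Measure Ω') [IsProbabilityMeasure m] [IsProbabilityMeasure m'] (W : Ω → Ω' → ℝ) (C : ℝ),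
  Measurable (Function.uncurry W) → (∀ x y, 0 ≤ W x y) → (∀ x y, W x y ≤ C) →
  (∀ (n : ℕ) (x : Fin n → Ω) (y : Fin n → Ω'), 0 < n →
    ((∑ k : Fin n, ∑ l : Fin n, W (x k) (y l)) / (n : ℝ) ^ 2) ^ E.card ≤
      (∑ i : U → Fin n, ∑ j : V → Fin n, ∏ e ∈ E, W (x (i e.1)) (y (j e.2))) /
        (n : ℝ) ^ (Fintype.card U + Fintype.card V)) →
  (∫ q : Ω × Ω', W q.1 q.2 ∂(m.prod m')) ^ E.card ≤ homInt E m m' W

end Vale.Agent.P050M
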