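import Mathlib
import Vale.Agent.P050M.Defs

namespace Vale.Agent.P050M

open Finset MeasureTheory

theorem inj : S_INJ := by
  classical
  intro Ω U _ _ m _ n i hi
  have hmeas : Measurable (fun (x : Fin n → Ω) (u : U) => x (i u)) :=
    measurable_pi_lambda _ fun u => measurable_pi_apply (i u)
  refine ⟨hmeas, ?_⟩
  symm
  refine Measure.pi_eq fun t ht => ?_
  rw [Measure.map_apply hmeas (MeasurableSet.univ_pi ht)]
  have hpre : (fun (x : Fin n → Ω) (u : U) => x (i u)) ⁻¹' (Set.pi Set.univ t)
      = Set.pi Set.univ (Function.extend i t fun _ => Set.univ) := by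
    ext x
    simp only [Set.mem_preimage, Set.mem_pi, Set.mem_univ, forall_true_left]
    constructor
    · intro h k
      by_cases hk : ∃ u, i u = k
      · obtain ⟨u, rfl⟩ := hk
        rw [hi.extend_apply]; exact h u
      · rw [Function.extend_apply' _ _ _ hk]; trivial
    · intro h u
      have := h (i u)
      rwa [hi.extend_apply] at this
  rw [hpre, Measure.pi_pi]
  symm
  refine Fintype.prod_of_injective i hi _ _ ?_ ?_
  · intro k hk
    rw [Function.extend_apply' _ _ _ (by simpa using hk)]
    exact measure_univ
  · intro u
    rw [hi.extend_apply]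

end Vale.Agent.P050M
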