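import Vale.Agent.P050M.Defs

/-!
# P050M, LOW: Jensen
-/

namespace Vale.Agent.P050M

open Finset MeasureTheory

namespace LowX

variable {Ω Ω' : Type} [MeasurableSpace Ω] [MeasurableSpace Ω']

theorem mp (m : Measure Ω) (m' : Measure Ω') [IsProbabilityMeasure m] [IsProbabilityMeasure m']
    (n : ℕ) (k l : Fin n) :
    MeasurePreserving (fun p : (Fin n → Ω) × (Fin n → Ω') => (p.1 k, p.2 l)) (samp m m' n)
      (m.prod m') :=
  (measurePreserving_eval (fun _ : Fin n => m) k).prod
    (measurePreserving_eval (fun _ : Fin n => m') l)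

end LowX

open LowX in
theorem low : S_LOW := by
  intro Ω Ω' _ _ m m' _ _ W C hW h0 hC n e hn
  have hn' : (0 : ℝ) < (n : ℝ) ^ 2 := by positivity
  have hprob : IsProbabilityMeasure (samp m m' n) := by
    unfold samp; infer_instance
  have hmeas : ∀ k l : Fin n, Measurable
      (fun p : (Fin n → Ω) × (Fin n → Ω') => W (p.1 k) (p.2 l)) := fun k l =>
    hW.comp (mp m m' n k l).measurable
  have hint : ∀ k l : Fin n, Integrable
      (fun p : (Fin n → Ω) × (Fin n → Ω') => W (p.1 k) (p.2 l)) (samp m m' n) := fun k l => by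
    refine Integrable.of_bound (hmeas k l).aestronglyMeasurable C
      (Filter.Eventually.of_forall fun p => ?_)
    rw [Real.norm_of_nonneg (h0 _ _)]
    exact hC _ _
  have hval : ∀ k l : Fin n, ∫ p, W (p.1 k) (p.2 l) ∂(samp m m' n) =
      ∫ q : Ω × Ω', W q.1 q.2 ∂(m.prod m') := by
    intro k l
    have h := mp m m' n k l
    rw [← h.map_eq, integral_map h.measurable.aemeasurable]
    exact hW.aestronglyMeasurable
  set f : (Fin n → Ω) × (Fin n → Ω') → ℝ :=
    fun p => (∑ k : Fin n, ∑ l : Fin n, W (p.1 k) (p.2 l)) / (n : ℝ) ^ 2 with hf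
  have hfm : Measurable f := by
    refine Measurable.div_const ?_ _
    exact Finset.measurable_fun_sum _ fun k _ => Finset.measurable_fun_sum _ fun l _ => hmeas k l
  have hf0 : ∀ p, 0 ≤ f p := fun p =>
    div_nonneg (Finset.sum_nonneg fun k _ => Finset.sum_nonneg fun l _ => h0 _ _) hn'.le
  have hfC : ∀ p, f p ≤ C := by
    intro p
    rw [hf]
    show (∑ k : Fin n, ∑ l : Fin n, W (p.1 k) (p.2 l)) / (n : ℝ) ^ 2 ≤ C
    rw [div_le_iff₀ hn']
    calc ∑ k : Fin n, ∑ l : Fin n, W (p.1 k) (p.2 l) ≤ ∑ _k : Fin n, ∑ _l : Fin n, C :=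
          Finset.sum_le_sum fun k _ => Finset.sum_le_sum fun l _ => hC _ _
      _ = C * (n : ℝ) ^ 2 := by
          simp only [Finset.sum_const, Finset.card_univ, Fintype.card_fin, nsmul_eq_mul]
          ring
  have hfint : Integrable f (samp m m' n) := by
    refine Integrable.of_bound hfm.aestronglyMeasurable C
      (Filter.Eventually.of_forall fun p => ?_)
    rw [Real.norm_of_nonneg (hf0 _)]
    exact hfC _
  have hfe : Integrable (fun p => f p ^ e) (samp m m' n) := by
    refine Integrable.of_bound (hfm.pow_const e).aestronglyMeasurable (C ^ e)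
      (Filter.Eventually.of_forall fun p => ?_)
    rw [Real.norm_of_nonneg (pow_nonneg (hf0 _) _)]
    exact pow_le_pow_left₀ (hf0 p) (hfC p) e
  have hmean : ∫ p, f p ∂(samp m m' n) = ∫ q : Ω × Ω', W q.1 q.2 ∂(m.prod m') := by
    rw [hf]
    show ∫ p, (∑ k : Fin n, ∑ l : Fin n, W (p.1 k) (p.2 l)) / (n : ℝ) ^ 2 ∂(samp m m' n) = _
    rw [integral_div, integral_finsetSum _ fun k _ => integrable_finsetSum _ fun l _ => hint k l]
    rw [Finset.sum_congr rfl fun k _ => integral_finsetSum _ fun l _ => hint k l]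
    simp only [hval, Finset.sum_const, Finset.card_univ, Fintype.card_fin, nsmul_eq_mul]
    field_simp
  have hJ := ConvexOn.map_integral_le (μ := samp m m' n) (f := f) (g := fun x : ℝ => x ^ e)
    (convexOn_pow e) (continuous_pow e).continuousOn isClosed_Ici
    (Filter.Eventually.of_forall fun p => hf0 p) hfint hfe
  rw [hmean] at hJ
  exact hJ

end Vale.Agent.P050M
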