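import Vale.Agent.P050M.Defs

/-!
# P050M, module TRANS (helper21)
-/

namespace Vale.Agent.P050M

open Finset MeasureTheory

namespace TransH

instance {Ω Ω' : Type} [MeasurableSpace Ω] [MeasurableSpace Ω']
    (m : Measure Ω) (m' : Measure Ω') [IsProbabilityMeasure m] [IsProbabilityMeasure m'] (n : ℕ) :
    IsProbabilityMeasure (samp m m' n) := by
  unfold samp
  infer_instance

lemma integrable {Ω Ω' U V : Type} [MeasurableSpace Ω] [MeasurableSpace Ω'] [Fintype U]
    [Fintype V] [DecidableEq U] [DecidableEq V] (E : Finset (U × V)) (m : Measure Ω)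
    (m' : Measure Ω') [IsProbabilityMeasure m] [IsProbabilityMeasure m'] (W : Ω → Ω' → ℝ) (C : ℝ)
    (hW : Measurable (Function.uncurry W)) (h0 : ∀ x y, 0 ≤ W x y) (hC : ∀ x y, W x y ≤ C)
    (n : ℕ) (i : U → Fin n) (j : V → Fin n) :
    Integrable (fun p : (Fin n → Ω) × (Fin n → Ω') => ∏ e ∈ E, W (p.1 (i e.1)) (p.2 (j e.2)))
      (samp m m' n) := by
  refine Integrable.of_bound (C := C ^ E.card) ?_ ?_
  · refine Measurable.aestronglyMeasurable ?_
    refine Finset.measurable_prod E fun e _ => ?_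
    have h1 : Measurable fun p : (Fin n → Ω) × (Fin n → Ω') =>
        ((p.1 (i e.1), p.2 (j e.2)) : Ω × Ω') :=
      ((measurable_pi_apply (i e.1)).comp measurable_fst).prodMk
        ((measurable_pi_apply (j e.2)).comp measurable_snd)
    exact hW.comp h1
  · refine Filter.Eventually.of_forall fun p => ?_
    rw [Real.norm_of_nonneg (Finset.prod_nonneg fun e _ => h0 _ _)]
    rw [← Finset.prod_const]
    exact Finset.prod_le_prod (fun e _ => h0 _ _) fun e _ => hC _ _

end TransH

theorem trans (UP : S_UP) (LOW : S_LOW) : S_TRANS := by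
  intro Ω Ω' U V _ _ _ _ _ _ E m m' _ _ W C hW h0 hC hyp
  set K : ℝ := ((Fintype.card U : ℝ) ^ 2 + (Fintype.card V : ℝ) ^ 2) * C ^ E.card with hK
  have key : ∀ n : ℕ, 0 < n →
      (∫ q : Ω × Ω', W q.1 q.2 ∂(m.prod m')) ^ E.card ≤ homInt E m m' W + K / n := by
    intro n hn
    have hn0 : (0 : ℝ) < n := by exact_mod_cast hn
    have hint : Integrable (fun p : (Fin n → Ω) × (Fin n → Ω') =>
        ∑ i : U → Fin n, ∑ j : V → Fin n, ∏ e ∈ E, W (p.1 (i e.1)) (p.2 (j e.2)))
        (samp m m' n) := by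
      refine integrable_finsetSum _ fun i _ => ?_
      refine integrable_finsetSum _ fun j _ => ?_
      exact TransH.integrable E m m' W C hW h0 hC n i j
    have h1 := LOW Ω Ω' m m' W C hW h0 hC n E.card hn
    have h2 := UP Ω Ω' U V E m m' W C hW h0 hC n hn
    have h3 : ∫ p, ((∑ k : Fin n, ∑ l : Fin n, W (p.1 k) (p.2 l)) / (n : ℝ) ^ 2) ^ E.card
        ∂(samp m m' n) ≤
        ∫ p, (∑ i : U → Fin n, ∑ j : V → Fin n, ∏ e ∈ E, W (p.1 (i e.1)) (p.2 (j e.2))) /
        (n : ℝ) ^ (Fintype.card U + Fintype.card V) ∂(samp m m' n) := by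
      refine integral_mono_of_nonneg ?_ (hint.div_const _) ?_
      · refine Filter.Eventually.of_forall fun p => ?_
        refine pow_nonneg (div_nonneg ?_ (by positivity)) _
        exact Finset.sum_nonneg fun k _ => Finset.sum_nonneg fun l _ => h0 _ _
      · exact Filter.Eventually.of_forall fun p => hyp n p.1 p.2 hn
    rw [integral_div] at h3
    refine (h1.trans h3).trans ?_
    rw [div_le_iff₀ (by positivity)]
    refine h2.trans (le_of_eq ?_)
    rw [hK]
    ring
  have hlim : Filter.Tendsto (fun n : ℕ => homInt E m m' W + K / n) Filter.atTop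
      (nhds (homInt E m m' W + 0)) :=
    tendsto_const_nhds.add (tendsto_const_div_atTop_nhds_zero_nat K)
  rw [add_zero] at hlim
  refine ge_of_tendsto hlim ?_
  filter_upwards [Filter.eventually_gt_atTop 0] with n hn
  exact key n hn

end Vale.Agent.P050M
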