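import Vale.Agent.P050M.Defs

/-!
# P050M: UP
-/

namespace Vale.Agent.P050M
namespace UpAux

open Finset MeasureTheory

theorem meas {Ω Ω' U V : Type} [MeasurableSpace Ω] [MeasurableSpace Ω'] (E : Finset (U × V))
    (W : Ω → Ω' → ℝ) (hm : Measurable (Function.uncurry W)) {A B : Type} (i : U → A) (j : V → B) :
    Measurable (fun p : (A → Ω) × (B → Ω') => ∏ e ∈ E, W (p.1 (i e.1)) (p.2 (j e.2))) := by
  apply Finset.measurable_prod
  intro e _
  have h1 : Measurable (fun p : (A → Ω) × (B → Ω') => (p.1 (i e.1), p.2 (j e.2))) :=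
    ((measurable_pi_apply (i e.1)).comp measurable_fst).prodMk
      ((measurable_pi_apply (j e.2)).comp measurable_snd)
  exact hm.comp h1

end UpAux

open Finset MeasureTheory UpAux in
theorem up (hCt : S_COUNT) (hI : S_INJ) : S_UP := by
  classical
  intro Ω Ω' U V _ _ _ _ _ _ E m m' _ _ W C hm h0 hC n hn
  have hΩ : Nonempty Ω := nonempty_of_isProbabilityMeasure m
  have hΩ' : Nonempty Ω' := nonempty_of_isProbabilityMeasure m'
  have hC0 : 0 ≤ C := (h0 (Classical.arbitrary Ω) (Classical.arbitrary Ω')).trans (hC _ _)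
  have hn0 : (0 : ℝ) < n := by exact_mod_cast hn
  have : IsProbabilityMeasure (samp m m' n) := by
    unfold samp
    infer_instance
  have hc0 : 0 ≤ C ^ E.card := pow_nonneg hC0 _
  have hF0 : ∀ (i : U → Fin n) (j : V → Fin n) (p : (Fin n → Ω) × (Fin n → Ω')),
      0 ≤ ∏ e ∈ E, W (p.1 (i e.1)) (p.2 (j e.2)) := fun i j p => prod_nonneg fun _ _ => h0 _ _
  have hF1 : ∀ (i : U → Fin n) (j : V → Fin n) (p : (Fin n → Ω) × (Fin n → Ω')),
      ∏ e ∈ E, W (p.1 (i e.1)) (p.2 (j e.2)) ≤ C ^ E.card := by
    intro i j p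
    rw [← prod_const]
    exact prod_le_prod (fun _ _ => h0 _ _) (fun _ _ => hC _ _)
  have hint : ∀ (i : U → Fin n) (j : V → Fin n), Integrable
      (fun p : (Fin n → Ω) × (Fin n → Ω') => ∏ e ∈ E, W (p.1 (i e.1)) (p.2 (j e.2)))
      (samp m m' n) := by
    intro i j
    apply Integrable.of_bound (meas E W hm i j).aestronglyMeasurable (C ^ E.card)
    apply Filter.Eventually.of_forall
    intro p
    rw [Real.norm_of_nonneg (hF0 i j p)]
    exact hF1 i j p
  have hh0 : 0 ≤ homInt E m m' W := integral_nonneg fun p => prod_nonneg fun _ _ => h0 _ _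
  have hbd : ∀ (i : U → Fin n) (j : V → Fin n),
      ∫ p, (∏ e ∈ E, W (p.1 (i e.1)) (p.2 (j e.2))) ∂(samp m m' n) ≤
        homInt E m m' W + (if ¬ Function.Injective i then C ^ E.card else 0) +
          (if ¬ Function.Injective j then C ^ E.card else 0) := by
    intro i j
    have hle : ∫ p, (∏ e ∈ E, W (p.1 (i e.1)) (p.2 (j e.2))) ∂(samp m m' n) ≤ C ^ E.card := by
      calc ∫ p, (∏ e ∈ E, W (p.1 (i e.1)) (p.2 (j e.2))) ∂(samp m m' n)
          ≤ ∫ _p, C ^ E.card ∂(samp m m' n) :=
            integral_mono (hint i j) (integrable_const _) (fun p => hF1 i j p)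
        _ = C ^ E.card := by simp
    by_cases hi : Function.Injective i
    · by_cases hj : Function.Injective j
      · have hmp := (hI Ω U m n i hi).prod (hI Ω' V m' n j hj)
        have e1 : homInt E m m' W =
            ∫ p, (∏ e ∈ E, W (p.1 (i e.1)) (p.2 (j e.2))) ∂(samp m m' n) := by
          have e0 := integral_map (μ := samp m m' n) hmp.measurable.aemeasurable
            (meas E W hm (id : U → U) (id : V → V)).aestronglyMeasurable
          unfold samp at e0
          rw [hmp.map_eq] at e0
          exact e0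
        simp [hi, hj, e1]
      · simp only [hi, hj, not_true_eq_false, not_false_eq_true, if_true, if_false]
        linarith
    · by_cases hj : Function.Injective j
      · simp only [hi, hj, not_true_eq_false, not_false_eq_true, if_true, if_false]
        linarith
      · simp only [hi, hj, not_false_eq_true, if_true]
        linarith
  rw [integral_finsetSum _ (fun i _ => integrable_finsetSum _ fun j _ => hint i j)]
  have h1 : ∑ i : U → Fin n, ∫ p, (∑ j : V → Fin n, ∏ e ∈ E, W (p.1 (i e.1)) (p.2 (j e.2)))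
      ∂(samp m m' n) ≤ ∑ i : U → Fin n, ∑ j : V → Fin n,
        (homInt E m m' W + (if ¬ Function.Injective i then C ^ E.card else 0) +
          (if ¬ Function.Injective j then C ^ E.card else 0)) := by
    apply sum_le_sum
    intro i _
    rw [integral_finsetSum _ fun j _ => hint i j]
    exact sum_le_sum fun j _ => hbd i j
  refine h1.trans ?_
  have e2 : ∑ i : U → Fin n, (if ¬ Function.Injective i then C ^ E.card else 0) =
      (Nat.card {i : U → Fin n // ¬ Function.Injective i} : ℝ) * C ^ E.card := by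
    rw [← sum_filter, sum_const, nsmul_eq_mul, Nat.card_eq_fintype_card, Fintype.card_subtype]
  have e3 : ∑ i : V → Fin n, (if ¬ Function.Injective i then C ^ E.card else 0) =
      (Nat.card {i : V → Fin n // ¬ Function.Injective i} : ℝ) * C ^ E.card := by
    rw [← sum_filter, sum_const, nsmul_eq_mul, Nat.card_eq_fintype_card, Fintype.card_subtype]
  simp only [sum_add_distrib, sum_const, card_univ, Fintype.card_fun, Fintype.card_fin,
    nsmul_eq_mul, ← mul_sum]
  rw [e2, e3]
  push_cast
  have c1 := hCt U n hn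
  have c2 := hCt V n hn
  have k1 := mul_le_mul_of_nonneg_left (mul_le_mul_of_nonneg_right c1 hc0)
    (pow_nonneg hn0.le (Fintype.card V))
  have k2 := mul_le_mul_of_nonneg_left (mul_le_mul_of_nonneg_right c2 hc0)
    (pow_nonneg hn0.le (Fintype.card U))
  rw [pow_add]
  have e4 : (n : ℝ) ^ Fintype.card U * (n : ℝ) ^ Fintype.card V * (homInt E m m' W +
      ((Fintype.card U : ℝ) ^ 2 + (Fintype.card V : ℝ) ^ 2) / n * C ^ E.card) =
      (n : ℝ) ^ Fintype.card U * ((n : ℝ) ^ Fintype.card V * homInt E m m' W) +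
      (n : ℝ) ^ Fintype.card V * ((Fintype.card U : ℝ) ^ 2 / n * (n : ℝ) ^ Fintype.card U *
        C ^ E.card) + (n : ℝ) ^ Fintype.card U * ((Fintype.card V : ℝ) ^ 2 / n *
        (n : ℝ) ^ Fintype.card V * C ^ E.card) := by
    ring
  rw [e4]
  linarith

end Vale.Agent.P050M
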