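import Vale.Agent.P050M.Final
import Vale.Agent.P050M.Up
import Vale.Agent.P050M.Count
import Vale.Agent.P050M.Inj
import Vale.Agent.P050M.Low
import Vale.Agent.P050M.Trans

/-!
# P050M: assembly
-/

namespace Vale.Agent.P050M

theorem trans_proved : S_TRANS := trans (up count inj) low

end Vale.Agent.P050M
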