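import Vale.Agent.P050M.Defs
import Vale.Agent.P050.Core
import Vale.Agent.P050.Final

/-!
# P050M: FINAL
-/

namespace Vale.Agent.P050M
namespace FinalAux

open Finset MeasureTheory

theorem conv {U V : Type} [Fintype U] [Fintype V] [DecidableEq U] [DecidableEq V]
    (E : Finset (U × V)) (n : ℕ) (hn : 0 < n) (W : Fin n → Fin n → ℝ)
    (h : (∑ a, ∑ b, (1 / (n : ℝ)) * (1 / (n : ℝ)) * W a b) ^ E.card ≤
      P050.homDensity E (fun _ : Fin n => 1 / (n : ℝ)) (fun _ : Fin n => 1 / (n : ℝ)) W) :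
    ((∑ k : Fin n, ∑ l : Fin n, W k l) / (n : ℝ) ^ 2) ^ E.card ≤
      (∑ i : U → Fin n, ∑ j : V → Fin n, ∏ e ∈ E, W (i e.1) (j e.2)) /
        (n : ℝ) ^ (Fintype.card U + Fintype.card V) := by
  have hn0 : (n : ℝ) ≠ 0 := by exact_mod_cast hn.ne'
  have h1 : ∑ a, ∑ b, (1 / (n : ℝ)) * (1 / (n : ℝ)) * W a b =
      (∑ k : Fin n, ∑ l : Fin n, W k l) / (n : ℝ) ^ 2 := by
    rw [sum_div]
    apply sum_congr rfl
    intro a _
    rw [sum_div]
    apply sum_congr rfl
    intro b _
    field_simp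
  have h2 : P050.homDensity E (fun _ : Fin n => 1 / (n : ℝ)) (fun _ : Fin n => 1 / (n : ℝ)) W =
      (∑ i : U → Fin n, ∑ j : V → Fin n, ∏ e ∈ E, W (i e.1) (j e.2)) /
        (n : ℝ) ^ (Fintype.card U + Fintype.card V) := by
    unfold P050.homDensity
    rw [sum_div]
    apply sum_congr rfl
    intro x _
    rw [sum_div]
    apply sum_congr rfl
    intro y _
    rw [prod_const, prod_const, card_univ, card_univ, one_div, inv_pow, inv_pow, pow_add]
    field_simp
  rw [h1, h2] at h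
  exact h

theorem tpm (hT : S_TRANS) {Ω Ω' U V : Type} [MeasurableSpace Ω] [MeasurableSpace Ω'] [Fintype U]
    [Fintype V] [DecidableEq U] [DecidableEq V] (E : Finset (U × V)) (m : Measure Ω)
    (m' : Measure Ω') [IsProbabilityMeasure m] [IsProbabilityMeasure m'] (W : Ω → Ω' → ℝ) (C : ℝ)
    (f : Ω → ℝ) (g : Ω' → ℝ)
    (hm : Measurable (Function.uncurry W)) (h0 : ∀ x y, 0 ≤ W x y) (hC : ∀ x y, W x y ≤ C)
    (hW : ∀ x x' y y', f x ≤ f x' → g y ≤ g y' → W x y' * W x' y ≤ W x y * W x' y') :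
    (∫ q : Ω × Ω', W q.1 q.2 ∂(m.prod m')) ^ E.card ≤ homInt E m m' W := by
  apply hT Ω Ω' U V E m m' W C hm h0 hC
  intro n x y hn
  have hn0 : (n : ℝ) ≠ 0 := by exact_mod_cast hn.ne'
  apply conv E n hn (fun k l => W (x k) (y l))
  apply P050.FinalAux.tp P050.main_proved E _ _ _ (fun k => f (x k)) (fun l => g (y l))
  · intro a; positivity
  · intro a; positivity
  · rw [sum_const, card_univ, Fintype.card_fin, nsmul_eq_mul]; field_simp
  · rw [sum_const, card_univ, Fintype.card_fin, nsmul_eq_mul]; field_simp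
  · intro a b; exact h0 _ _
  · intro a a' b b' h1 h2
    exact hW _ _ _ _ h1 h2

theorem rank2m (hT : S_TRANS) {Ω Ω' U V : Type} [MeasurableSpace Ω] [MeasurableSpace Ω']
    [Fintype U] [Fintype V] [DecidableEq U] [DecidableEq V] (E : Finset (U × V)) (m : Measure Ω)
    (m' : Measure Ω') [IsProbabilityMeasure m] [IsProbabilityMeasure m'] (C : ℝ)
    (f₁ f₂ : Ω → ℝ) (g₁ g₂ : Ω' → ℝ)
    (hm : Measurable (Function.uncurry fun x y => f₁ x * g₁ y + f₂ x * g₂ y))
    (h0 : ∀ x y, 0 ≤ f₁ x * g₁ y + f₂ x * g₂ y) (hC : ∀ x y, f₁ x * g₁ y + f₂ x * g₂ y ≤ C) :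
    (∫ q : Ω × Ω', (f₁ q.1 * g₁ q.2 + f₂ q.1 * g₂ q.2) ∂(m.prod m')) ^ E.card ≤
      homInt E m m' (fun x y => f₁ x * g₁ y + f₂ x * g₂ y) := by
  apply hT Ω Ω' U V E m m' (fun x y => f₁ x * g₁ y + f₂ x * g₂ y) C hm h0 hC
  intro n x y hn
  have hn0 : (n : ℝ) ≠ 0 := by exact_mod_cast hn.ne'
  apply conv E n hn (fun k l => f₁ (x k) * g₁ (y l) + f₂ (x k) * g₂ (y l))
  apply P050.FinalAux.rank2 P050.main_proved E _ _ (fun k => f₁ (x k)) (fun k => f₂ (x k))
    (fun l => g₁ (y l)) (fun l => g₂ (y l))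
  · intro a; positivity
  · intro a; positivity
  · rw [sum_const, card_univ, Fintype.card_fin, nsmul_eq_mul]; field_simp
  · rw [sum_const, card_univ, Fintype.card_fin, nsmul_eq_mul]; field_simp
  · intro a b; exact h0 _ _

/-- the density of a simple graph in a symmetric kernel as a density of a bipartite graph -/
theorem symm_conv {Ω B : Type} [MeasurableSpace Ω] [Fintype B] [DecidableEq B]
    (H : SimpleGraph B) [DecidableRel H.Adj] (c : H.Coloring (Fin 2)) (m : Measure Ω)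
    [IsProbabilityMeasure m] (W : Ω → Ω → ℝ) (hs : ∀ x y, W x y = W y x) :
    ∃ E : Finset ({w // c w = 0} × {w // ¬ c w = 0}), E.card = H.edgeFinset.card ∧
      ∫ x : B → Ω, (∏ e ∈ H.edgeFinset, Sym2.lift ⟨fun u v => W (x u) (x v),
        fun _ _ => hs _ _⟩ e) ∂(Measure.pi fun _ : B => m) = homInt E m m W := by
  classical
  let E : Finset ({w // c w = 0} × {w // ¬ c w = 0}) := univ.filter fun e => H.Adj e.1.1 e.2.1
  have hbij : ∀ F : Sym2 B → ℝ, ∏ e ∈ H.edgeFinset, F e = ∏ e ∈ E, F s(e.1.1, e.2.1) := by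
    intro F
    symm
    apply prod_bij (fun e _ => s(e.1.1, e.2.1))
    · intro e he
      simp only [E, mem_filter] at he
      exact SimpleGraph.mem_edgeFinset.2 he.2
    · rintro ⟨u, v⟩ h ⟨u', v'⟩ h' heq
      simp only [Sym2.eq_iff] at heq
      rcases heq with ⟨h1, h2⟩ | ⟨h1, h2⟩
      · exact Prod.ext (Subtype.ext h1) (Subtype.ext h2)
      · exfalso
        apply v'.2
        rw [← h1]
        exact u.2
    · intro e he
      induction e using Sym2.ind with
      | _ u v =>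
        rw [SimpleGraph.mem_edgeFinset, SimpleGraph.mem_edgeSet] at he
        by_cases h : c u = 0
        · have hv : ¬ c v = 0 := fun hv => c.valid he (h.trans hv.symm)
          exact ⟨(⟨u, h⟩, ⟨v, hv⟩), by simp [E, he], rfl⟩
        · have hv : c v = 0 := by
            have := c.valid he
            omega
          exact ⟨(⟨v, hv⟩, ⟨u, h⟩), by simp [E, he.symm], Sym2.eq_swap⟩
    · intro e he
      rfl
  have hcard : E.card = H.edgeFinset.card := by
    have := hbij (fun _ => (2 : ℝ))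
    rw [prod_const, prod_const] at this
    exact (Nat.pow_right_injective (le_refl 2) (by exact_mod_cast this)).symm
  refine ⟨E, hcard, ?_⟩
  have hmp := measurePreserving_piEquivPiSubtypeProd (fun _ : B => m) (fun w => c w = 0)
  unfold homInt
  rw [← hmp.integral_comp']
  congr 1
  funext x
  rw [hbij]
  rfl

end FinalAux

end Vale.Agent.P050M
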