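import Mathlib

/-!
# P050: homomorphism densities of bipartite graphs in measurable kernels
-/

namespace Vale.Agent.P050M

open Finset MeasureTheory

/-- homomorphism density `t(H, W)` of the bipartite graph `H` with parts `U`, `V` and edge set `E`
in the kernel `W` on the probability spaces `(Ω, m)`, `(Ω', m')` -/
noncomputable def homInt {Ω Ω' U V : Type} [MeasurableSpace Ω] [MeasurableSpace Ω'] [Fintype U]
    [Fintype V] (E : Finset (U × V)) (m : Measure Ω) (m' : Measure Ω') (W : Ω → Ω' → ℝ) : ℝ :=
  ∫ p : (U → Ω) × (V → Ω'), ∏ e ∈ E, W (p.1 e.1) (p.2 e.2)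
    ∂((Measure.pi fun _ : U => m).prod (Measure.pi fun _ : V => m'))

end Vale.Agent.P050M
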